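import Vale.Agent.P237.Quant.TailData.N59.tailN59N0Base

/-!
Tail calibration tailN59N0 in dimension 59. A part of the intervals. Generated data, checked by the kernel.
-/

set_option maxRecDepth 100000
set_option linter.all false

namespace Vale.Agent.P237.Quant.TailData

open TailCert


/-- An interval. -/
noncomputable def tailN59N0I79 : Ival :=
  Decode.ival 0x80000209ca6080002000008272902710009c4000e8ae1f8bef7a73c29892192ebff09d026bb9547371ef5200b3bb281bdf2adbfe7c118be34426ca00000000000000003dcb08d3dcb08d328000000000000000000000000000000000000100000000000800b0fb6a6379489a12d801b6c00001047b004000100000411d641388003975c000000000000000021d1e58ad20eaef02525c1da501ff1aa062de2a17572967ff4ecfaa7f32ce95c020422a8b1c2aa94065ce5afb5f46e68060cd76c2d6bc5ce02589ab559cc32e800000400000000004005b961d977440ced9d400db745de02f6ee4c1548000000000000000400001040001000004000000e5d70000000000000000000000000000000000000000000000000000000000000000000000000000005ae9fb552161ea800000000000000000000000000000000000000000000000050000000c000e8164136dcb1c57e6ec4003a2904b332ede4000000000000000200000820000800002000000000000556100000800000010000002d5404d77444fedbdc00307000003ee488100004000010000000aac209c3f8000000000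000000000000000000000000000000000000000c779e48e0bee389fb72a5d148e8beef000000000000000000000000000000000000000000000000000000000000000000000000000000001001601bdac17d4cbf6c00036da01c000018501000000020000000140000fdaf00000000000000007ffa3fbde000443d04004abffaef50c3cd92640058600003ee020000001000000017ed7bca7c0000000000000001ffe8fef7800110f4100111aa80c014b2a70f40015a8000400008000000400000001e53effff800045e912919a8df515e40036b00a71001fffd01dd1a94a20000a6bf0e440cce2003e6cf01f000b80401062d8b033eafc30a81f7ffffffffe59c984081fffffbc029f594702040000025f9b79d96041fffffe77ff25ad86102007e48be63331d3040801f901a5aa11ca410200c0000097ff4811a4d74aa94d6a8473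

/-- A part of the intervals. -/
noncomputable def tailN59N0L20 : List Ival :=
  [tailN59N0I79]

theorem tailN59N0L20_ok : tailN59N0Base.partUsed tailN59N0Used tailN59N0L20 = true := by
  decide +kernel

end Vale.Agent.P237.Quant.TailData
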