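import Vale.Agent.P237.Quant.TailData.N59.tailN59P0Part0
import Vale.Agent.P237.Quant.TailData.N59.tailN59P0Part1
import Vale.Agent.P237.Quant.TailData.N59.tailN59P0Part2
import Vale.Agent.P237.Quant.TailData.N59.tailN59P0Part3
import Vale.Agent.P237.Quant.TailData.N59.tailN59P0Part4
import Vale.Agent.P237.Quant.TailData.N59.tailN59P0Part5
import Vale.Agent.P237.Quant.TailData.N59.tailN59P0Part6
import Vale.Agent.P237.Quant.TailData.N59.tailN59P0Part7
import Vale.Agent.P237.Quant.TailData.N59.tailN59P0Part8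
import Vale.Agent.P237.Quant.TailData.N59.tailN59P0Part9

/-!
Tail calibration tailN59P0 in dimension 59. The check. Generated data, checked by the kernel.
-/

set_option maxRecDepth 100000
set_option linter.all false

namespace Vale.Agent.P237.Quant.TailData

open TailCert


/-- The calibration. -/
noncomputable def tailN59P0 : Cfg :=
  tailN59P0Base.withIvals (List.flatten [tailN59P0L0, tailN59P0L1, tailN59P0L2, tailN59P0L3, tailN59P0L4, tailN59P0L5, tailN59P0L6, tailN59P0L7, tailN59P0L8, tailN59P0L9, tailN59P0L10, tailN59P0L11, tailN59P0L12, tailN59P0L13, tailN59P0L14, tailN59P0L15, tailN59P0L16, tailN59P0L17, tailN59P0L18, tailN59P0L19, tailN59P0L20, tailN59P0L21, tailN59P0L22, tailN59P0L23, tailN59P0L24, tailN59P0L25, tailN59P0L26, tailN59P0L27, tailN59P0L28, tailN59P0L29, tailN59P0L30, tailN59P0L31, tailN59P0L32, tailN59P0L33, tailN59P0L34, tailN59P0L35, tailN59P0L36, tailN59P0L37, tailN59P0L38, tailN59P0L39])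

theorem tailN59P0_parts : [tailN59P0L0, tailN59P0L1, tailN59P0L2, tailN59P0L3, tailN59P0L4, tailN59P0L5, tailN59P0L6, tailN59P0L7, tailN59P0L8, tailN59P0L9, tailN59P0L10, tailN59P0L11, tailN59P0L12, tailN59P0L13, tailN59P0L14, tailN59P0L15, tailN59P0L16, tailN59P0L17, tailN59P0L18, tailN59P0L19, tailN59P0L20, tailN59P0L21, tailN59P0L22, tailN59P0L23, tailN59P0L24, tailN59P0L25, tailN59P0L26, tailN59P0L27, tailN59P0L28, tailN59P0L29, tailN59P0L30, tailN59P0L31, tailN59P0L32, tailN59P0L33, tailN59P0L34, tailN59P0L35, tailN59P0L36, tailN59P0L37, tailN59P0L38, tailN59P0L39].Forall fun l => tailN59P0Base.partUsed tailN59P0Used l = true := by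
  simp only [List.forall_cons, List.Forall]
  exact ⟨tailN59P0L0_ok, tailN59P0L1_ok, tailN59P0L2_ok, tailN59P0L3_ok, tailN59P0L4_ok, tailN59P0L5_ok, tailN59P0L6_ok, tailN59P0L7_ok, tailN59P0L8_ok, tailN59P0L9_ok, tailN59P0L10_ok, tailN59P0L11_ok, tailN59P0L12_ok, tailN59P0L13_ok, tailN59P0L14_ok, tailN59P0L15_ok, tailN59P0L16_ok, tailN59P0L17_ok, tailN59P0L18_ok, tailN59P0L19_ok, tailN59P0L20_ok, tailN59P0L21_ok, tailN59P0L22_ok, tailN59P0L23_ok, tailN59P0L24_ok, tailN59P0L25_ok, tailN59P0L26_ok, tailN59P0L27_ok, tailN59P0L28_ok, tailN59P0L29_ok, tailN59P0L30_ok, tailN59P0L31_ok, tailN59P0L32_ok, tailN59P0L33_ok, tailN59P0L34_ok, tailN59P0L35_ok, tailN59P0L36_ok, tailN59P0L37_ok, tailN59P0L38_ok, tailN59P0L39_ok⟩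

theorem tailN59P0_check : tailN59P0.check = true :=
  Cfg.check_of_parts (by decide +kernel) tailN59P0_parts

end Vale.Agent.P237.Quant.TailData
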