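import Vale.Agent.P237.Quant.TailData.N59.tailN59P2Part0
import Vale.Agent.P237.Quant.TailData.N59.tailN59P2Part1
import Vale.Agent.P237.Quant.TailData.N59.tailN59P2Part2
import Vale.Agent.P237.Quant.TailData.N59.tailN59P2Part3
import Vale.Agent.P237.Quant.TailData.N59.tailN59P2Part4

/-!
Tail calibration tailN59P2 in dimension 59. The check. Generated data, checked by the kernel.
-/

set_option maxRecDepth 100000
set_option linter.all false

namespace Vale.Agent.P237.Quant.TailData

open TailCert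


/-- The calibration. -/
noncomputable def tailN59P2 : Cfg :=
  tailN59P2Base.withIvals (List.flatten [tailN59P2L0, tailN59P2L1, tailN59P2L2, tailN59P2L3, tailN59P2L4, tailN59P2L5, tailN59P2L6, tailN59P2L7, tailN59P2L8, tailN59P2L9, tailN59P2L10, tailN59P2L11, tailN59P2L12, tailN59P2L13, tailN59P2L14, tailN59P2L15, tailN59P2L16, tailN59P2L17, tailN59P2L18])

theorem tailN59P2_parts : [tailN59P2L0, tailN59P2L1, tailN59P2L2, tailN59P2L3, tailN59P2L4, tailN59P2L5, tailN59P2L6, tailN59P2L7, tailN59P2L8, tailN59P2L9, tailN59P2L10, tailN59P2L11, tailN59P2L12, tailN59P2L13, tailN59P2L14, tailN59P2L15, tailN59P2L16, tailN59P2L17, tailN59P2L18].Forall fun l => tailN59P2Base.partUsed tailN59P2Used l = true := by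
  simp only [List.forall_cons, List.Forall]
  exact ⟨tailN59P2L0_ok, tailN59P2L1_ok, tailN59P2L2_ok, tailN59P2L3_ok, tailN59P2L4_ok, tailN59P2L5_ok, tailN59P2L6_ok, tailN59P2L7_ok, tailN59P2L8_ok, tailN59P2L9_ok, tailN59P2L10_ok, tailN59P2L11_ok, tailN59P2L12_ok, tailN59P2L13_ok, tailN59P2L14_ok, tailN59P2L15_ok, tailN59P2L16_ok, tailN59P2L17_ok, tailN59P2L18_ok⟩

theorem tailN59P2_check : tailN59P2.check = true :=
  Cfg.check_of_parts (by decide +kernel) tailN59P2_parts

end Vale.Agent.P237.Quant.TailData
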