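import Vale.Agent.P237.Quant.TailData.N59.tailN59P3Part0
import Vale.Agent.P237.Quant.TailData.N59.tailN59P3Part1
import Vale.Agent.P237.Quant.TailData.N59.tailN59P3Part2
import Vale.Agent.P237.Quant.TailData.N59.tailN59P3Part3
import Vale.Agent.P237.Quant.TailData.N59.tailN59P3Part4
import Vale.Agent.P237.Quant.TailData.N59.tailN59P3Part5
import Vale.Agent.P237.Quant.TailData.N59.tailN59P3Part6

/-!
Tail calibration tailN59P3 in dimension 59. The check. Generated data, checked by the kernel.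
-/

set_option maxRecDepth 100000
set_option linter.all false

namespace Vale.Agent.P237.Quant.TailData

open TailCert


/-- The calibration. -/
noncomputable def tailN59P3 : Cfg :=
  tailN59P3Base.withIvals (List.flatten [tailN59P3L0, tailN59P3L1, tailN59P3L2, tailN59P3L3, tailN59P3L4, tailN59P3L5, tailN59P3L6, tailN59P3L7, tailN59P3L8, tailN59P3L9, tailN59P3L10, tailN59P3L11, tailN59P3L12, tailN59P3L13, tailN59P3L14, tailN59P3L15, tailN59P3L16, tailN59P3L17, tailN59P3L18, tailN59P3L19, tailN59P3L20, tailN59P3L21, tailN59P3L22, tailN59P3L23, tailN59P3L24, tailN59P3L25, tailN59P3L26])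

theorem tailN59P3_parts : [tailN59P3L0, tailN59P3L1, tailN59P3L2, tailN59P3L3, tailN59P3L4, tailN59P3L5, tailN59P3L6, tailN59P3L7, tailN59P3L8, tailN59P3L9, tailN59P3L10, tailN59P3L11, tailN59P3L12, tailN59P3L13, tailN59P3L14, tailN59P3L15, tailN59P3L16, tailN59P3L17, tailN59P3L18, tailN59P3L19, tailN59P3L20, tailN59P3L21, tailN59P3L22, tailN59P3L23, tailN59P3L24, tailN59P3L25, tailN59P3L26].Forall fun l => tailN59P3Base.partUsed tailN59P3Used l = true := by
  simp only [List.forall_cons, List.Forall]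
  exact ⟨tailN59P3L0_ok, tailN59P3L1_ok, tailN59P3L2_ok, tailN59P3L3_ok, tailN59P3L4_ok, tailN59P3L5_ok, tailN59P3L6_ok, tailN59P3L7_ok, tailN59P3L8_ok, tailN59P3L9_ok, tailN59P3L10_ok, tailN59P3L11_ok, tailN59P3L12_ok, tailN59P3L13_ok, tailN59P3L14_ok, tailN59P3L15_ok, tailN59P3L16_ok, tailN59P3L17_ok, tailN59P3L18_ok, tailN59P3L19_ok, tailN59P3L20_ok, tailN59P3L21_ok, tailN59P3L22_ok, tailN59P3L23_ok, tailN59P3L24_ok, tailN59P3L25_ok, tailN59P3L26_ok⟩

theorem tailN59P3_check : tailN59P3.check = true :=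
  Cfg.check_of_parts (by decide +kernel) tailN59P3_parts

end Vale.Agent.P237.Quant.TailData
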